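import Vale.Agent.P062.Cert.Main

/-!
Maker wins the Snaky achievement game on the planar grid.
-/

namespace Vale.Agent.Results.P062.SnakyMakerWins

open Vale.Agent.P062

theorem result : MakerHasWinningStrategy :=
  Vale.Agent.P062.Cert.makerWins

end Vale.Agent.Results.P062.SnakyMakerWins
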